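import Mathlib

/-!
Row 304 (S0464): the replica lemma, definitions.
`K` replicas of a finite state space `O`; one step applies a pair kernel `R` to a uniformly chosen
ordered pair of distinct replicas.
-/

set_option autoImplicit false
open Finset

namespace Crest.Agent.R304R

/-- product weight of a population -/
def PW {O : Type*} {K : ℕ} (p : O → ℝ) (x : Fin K → O) : ℝ := ∏ i, p (x i)

/-- overwrite replicas `i` and `j` -/
def upd2 {O : Type*} {K : ℕ} (x : Fin K → O) (i j : Fin K) (z : O × O) : Fin K → O :=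
  Function.update (Function.update x i z.1) j z.2

/-- the pair kernel acting on replicas `i`, `j` (as an operator on test functions) -/
def pairOp {O : Type*} [Fintype O] {K : ℕ} (R : O × O → O × O → ℝ) (i j : Fin K)
    (φ : (Fin K → O) → ℝ) (x : Fin K → O) : ℝ :=
  ∑ z, R (x i, x j) z * φ (upd2 x i j z)

/-- one step: `(i,j)` uniform in `[0,M)²`, idle unless `i ≠ j` are both `< K` -/
noncomputable def step {O : Type*} [Fintype O] {K : ℕ} (R : O × O → O × O → ℝ) (M : ℕ)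
    (φ : (Fin K → O) → ℝ) (x : Fin K → O) : ℝ :=
  ((∑ q ∈ (univ : Finset (Fin K)).offDiag, pairOp R q.1 q.2 φ x)
    + ((M : ℝ) ^ 2 - (K : ℝ) * (K - 1)) * φ x) / (M : ℝ) ^ 2

/-- a lazy reversible pair kernel satisfying the linearised Poincaré inequality -/
structure PairKer {O : Type*} [Fintype O] (p : O → ℝ) (R : O × O → O × O → ℝ) (γ : ℝ) : Prop where
  p_nonneg : ∀ a, 0 ≤ p a
  p_sum : ∑ a, p a = 1
  nonneg : ∀ z z', 0 ≤ R z z'
  row : ∀ z, ∑ z', R z z' = 1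
  rev : ∀ z z', p z.1 * p z.2 * R z z' = p z'.1 * p z'.2 * R z' z
  lazy : ∀ z, 1 / 2 ≤ R z z
  lin : ∀ g : O → ℝ, ∑ a, p a * g a = 0 →
    γ * ∑ a, p a * g a ^ 2 ≤
      1 / 2 * ∑ z, ∑ z', p z.1 * p z.2 * R z z' * (g z.1 + g z.2 - g z'.1 - g z'.2) ^ 2

/-- The replica lemma. -/
def RepStmt : Prop :=
  ∀ (O : Type) [Fintype O] [DecidableEq O] (p : O → ℝ) (R : O × O → O × O → ℝ) (γ : ℝ),
    PairKer p R γ → 0 < γ → γ ≤ 1 →
    ∀ (K M K' W t : ℕ), K ≤ M → 1 ≤ K' → 1 ≤ W → K' + 2 * W ≤ K →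
    ∀ (h : O → ℝ) (d : ℝ), ∑ a, p a * h a = 1 → ∑ a, p a * h a ^ 2 ≤ 1 + d →
    ∀ φ : (Fin K → O) → ℝ, (∀ x, |φ x| ≤ 1) →
      (∀ x y : Fin K → O, (∀ i : Fin K, i.1 < K' → x i = y i) → φ x = φ y) →
      (∑ x, PW (fun a => p a * h a) x * (step R M)^[t] φ x - ∑ x, PW p x * φ x) ^ 2 ≤
        Real.exp (d * K) * (M : ℝ) ^ 2 *
          ((W + 1) * Real.exp (-(γ * W * t / (8 * (M : ℝ) ^ 2)))
            + 20 / γ ^ 2 * Real.exp (-(γ ^ 2 * W / 80)))

end Crest.Agent.R304R
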