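import Mathlib

set_option autoImplicit false
open Finset

namespace Crest.Agent.R304R

lemma abel_geo (ρ η : ℝ) (hη : 0 ≤ η) (hρ : ρ * (1 + η) = 1) (b : ℕ → ℝ) (hb : 0 ≤ b 0) (n : ℕ) :
    ∑ i ∈ range (n + 1), ρ ^ i * (b (i + 1) - b i)
      ≤ ρ ^ n * b (n + 1) + η * ∑ i ∈ range (n + 1), ρ ^ i * b i := by
  induction n with
  | zero => simp; nlinarith
  | succ n ih =>
    rw [sum_range_succ, sum_range_succ (fun i => ρ ^ i * b i)]
    have : ρ ^ n * b (n + 1) = ρ ^ (n + 1) * b (n + 1) + η * (ρ ^ (n + 1) * b (n + 1)) := by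
      calc ρ ^ n * b (n + 1) = ρ ^ n * (ρ * (1 + η)) * b (n + 1) := by rw [hρ, mul_one]
        _ = _ := by ring
    nlinarith

lemma lin_rec (Φ : ℕ → ℝ) (c B : ℝ) (hc : 0 < c) (hc1 : c ≤ 1) (hB : 0 ≤ B)
    (h : ∀ t, Φ (t + 1) ≤ (1 - c) * Φ t + B) (t : ℕ) : Φ t ≤ (1 - c) ^ t * Φ 0 + B / c := by
  induction t with
  | zero => simp; positivity
  | succ t ih =>
    have := mul_le_mul_of_nonneg_left ih (sub_nonneg.2 hc1)
    have e : (1 - c) * (B / c) + B = B / c := by field_simp; ring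
    calc Φ (t + 1) ≤ (1 - c) * Φ t + B := h t
      _ ≤ (1 - c) * ((1 - c) ^ t * Φ 0 + B / c) + B := by linarith
      _ = (1 - c) ^ (t + 1) * Φ 0 + ((1 - c) * (B / c) + B) := by ring
      _ = _ := by rw [e]

lemma seq_bound (a : ℕ → ℕ → ℝ) (K M K' W : ℕ) (γ A : ℝ) (hKM : K ≤ M) (hK' : 1 ≤ K')
    (hW : 1 ≤ W) (hK : K' + 2 * W ≤ K) (hγ : 0 < γ) (hγ1 : γ ≤ 1)
    (h0 : ∀ t, a t 0 = 1) (hmono : ∀ t k, k < K → a t k ≤ a t (k + 1))
    (hconv : ∀ t k, k + 2 ≤ K → 0 ≤ a t (k + 2) - 2 * a t (k + 1) + a t k)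
    (hA : ∀ t, a t K ≤ A)
    (hrec : ∀ t k, k + 2 ≤ K → a (t + 1) (k + 1) ≤ a t (k + 1)
      - 2 * ((k : ℝ) + 1) * (K - (k + 1)) / (M : ℝ) ^ 2 *
        (γ / 4 * (a t (k + 1) - a t k) - 5 / γ * (a t (k + 2) - 2 * a t (k + 1) + a t k)))
    (t : ℕ) :
    a t K' - 1 ≤ A * (M : ℝ) ^ 2 *
      ((W + 1) * Real.exp (-(γ * W * t / (8 * (M : ℝ) ^ 2)))
        + 20 / γ ^ 2 * Real.exp (-(γ ^ 2 * W / 80))) := by
  obtain ⟨j, rfl⟩ : ∃ j, K' = j + 1 := ⟨K' - 1, by omega⟩
  have hM : (0 : ℝ) < M := by exact_mod_cast (show 0 < M by omega)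
  have hM2 : (0 : ℝ) < (M : ℝ) ^ 2 := by positivity
  have hW' : (1 : ℝ) ≤ W := by exact_mod_cast hW
  have hKr : (j : ℝ) + 1 + 2 * W ≤ K := by exact_mod_cast hK
  have hKM' : (K : ℝ) ≤ M := by exact_mod_cast hKM
  have hge : ∀ t k, k ≤ K → 1 ≤ a t k := by
    intro t k hk
    induction k with
    | zero => rw [h0]
    | succ k ih => exact (ih (by omega)).trans (hmono t k (by omega))
  have hle : ∀ t k, k ≤ K → a t k ≤ A := by
    intro t k hk
    have : ∀ n, n ≤ K → a t (K - n) ≤ A := by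
      intro n hn
      induction n with
      | zero => exact hA t
      | succ n ih =>
        have := hmono t (K - (n + 1)) (by omega)
        rw [show K - (n + 1) + 1 = K - n by omega] at this
        exact this.trans (ih (by omega))
    have := this (K - k) (by omega)
    rwa [show K - (K - k) = k by omega] at this
  have hA1 : 1 ≤ A := (hge 0 K le_rfl).trans (hA 0)
  have hlin : ∀ t k, k + 1 ≤ K → a t (k + 1) - 1 ≤ ((k : ℝ) + 1) * (a t (k + 1) - a t k) := by
    intro t k hk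
    induction k with
    | zero => simp [h0]
    | succ k ih =>
      have h1 := ih (by omega)
      have h2 := hconv t k (by omega)
      have h3 : (0 : ℝ) ≤ (k : ℝ) + 1 := by positivity
      push_cast
      nlinarith [mul_nonneg h3 h2]
  set η : ℝ := γ ^ 2 / 40 with hη
  have hη0 : 0 < η := by positivity
  have hη1 : η ≤ 1 := by rw [hη]; nlinarith
  set ρ : ℝ := 1 / (1 + η) with hρ
  have hρ0 : 0 < ρ := by positivity
  have hρη : ρ * (1 + η) = 1 := by rw [hρ]; field_simp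
  have hρ1 : ρ ≤ 1 := by rw [hρ, div_le_one (by positivity)]; linarith
  set q : ℕ → ℝ := fun i => 2 * (((j + i : ℕ) : ℝ) + 1) * (K - ((j + i : ℕ) + 1)) / (M : ℝ) ^ 2
    with hq
  have hqW : ∀ i, i ≤ W → (W : ℝ) ≤ K - ((j + i : ℕ) + 1) := by
    intro i hi
    have : (i : ℝ) ≤ W := by exact_mod_cast hi
    push_cast; linarith
  have hq0 : ∀ i, i ≤ W → 1 / (M : ℝ) ^ 2 ≤ q i := by
    intro i hi
    simp only [hq]
    refine div_le_div_of_nonneg_right ?_ hM2.le
    have h1 := hqW i hi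
    have h2 : (0 : ℝ) ≤ ((j + i : ℕ) : ℝ) := by positivity
    nlinarith
  have hqpos : ∀ i, i ≤ W → 0 < q i := fun i hi => lt_of_lt_of_le (by positivity) (hq0 i hi)
  set Φ : ℕ → ℝ := fun t => ∑ i ∈ range (W + 1), ρ ^ i / q i * (a t (j + i + 1) - 1) with hΦ
  set c : ℝ := γ * W / (4 * (M : ℝ) ^ 2) with hc
  have hc0 : 0 < c := by positivity
  have hc1 : c ≤ 1 := by
    rw [hc, div_le_one (by positivity)]
    have : (W : ℝ) ≤ M := by have : (0 : ℝ) ≤ j := by positivity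
                             linarith
    have h1 : (1 : ℝ) ≤ M := by linarith
    nlinarith
  have hstep : ∀ t, Φ (t + 1) ≤ (1 - c) * Φ t + 5 / γ * ρ ^ W * A := by
    intro t
    set b : ℕ → ℝ := fun i => a t (j + i + 1) - a t (j + i) with hb
    have hb0 : ∀ i, i ≤ W + 1 → 0 ≤ b i := fun i hi => sub_nonneg.2 (hmono t (j + i) (by omega))
    have h1 : Φ (t + 1) ≤ Φ t - γ / 4 * ∑ i ∈ range (W + 1), ρ ^ i * b i
        + 5 / γ * ∑ i ∈ range (W + 1), ρ ^ i * (b (i + 1) - b i) := by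
      simp only [hΦ]
      rw [mul_sum, mul_sum, ← sum_sub_distrib, ← sum_add_distrib]
      refine sum_le_sum fun i hi => ?_
      have hi' : i ≤ W := by have := mem_range.1 hi; omega
      have hr := hrec t (j + i) (by omega)
      have hqi := hqpos i hi'
      change a (t + 1) (j + i + 1) ≤ a t (j + i + 1) - q i * _ at hr
      have hpos : 0 ≤ ρ ^ i / q i := by positivity
      have := mul_le_mul_of_nonneg_left (sub_le_sub_right hr 1) hpos
      refine this.trans (le_of_eq ?_)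
      simp only [hb]
      rw [show j + (i + 1) + 1 = j + i + 2 by omega, show j + (i + 1) = j + i + 1 by omega]
      field_simp
      ring
    have h2 := abel_geo ρ η hη0.le hρη b (hb0 0 (by omega)) W
    have h3 : b (W + 1) ≤ A := by
      simp only [hb]
      have := hle t (j + (W + 1) + 1) (by omega)
      have := hge t (j + (W + 1)) (by omega)
      linarith
    have h4 : 2 * W / (M : ℝ) ^ 2 * Φ t ≤ ∑ i ∈ range (W + 1), ρ ^ i * b i := by
      simp only [hΦ]
      rw [mul_sum]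
      refine sum_le_sum fun i hi => ?_
      have hi' : i ≤ W := by have := mem_range.1 hi; omega
      have hl := hlin t (j + i) (by omega)
      have hqi := hqpos i hi'
      have hw := hqW i hi'
      have hg := hge t (j + i + 1) (by omega)
      have hbi := hb0 i (by omega)
      change a t (j + i + 1) - 1 ≤ _ * b i at hl
      have hk : (0 : ℝ) < ((j + i : ℕ) : ℝ) + 1 := by positivity
      have e : 2 * W / (M : ℝ) ^ 2 * (((j + i : ℕ) : ℝ) + 1) ≤ q i := by
        simp only [hq]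
        rw [div_mul_eq_mul_div]
        refine div_le_div_of_nonneg_right ?_ hM2.le
        nlinarith
      have e2 : 2 * W / (M : ℝ) ^ 2 * (a t (j + i + 1) - 1) ≤ q i * b i := by
        calc _ ≤ 2 * W / (M : ℝ) ^ 2 * ((((j + i : ℕ) : ℝ) + 1) * b i) :=
              mul_le_mul_of_nonneg_left hl (by positivity)
          _ = 2 * W / (M : ℝ) ^ 2 * (((j + i : ℕ) : ℝ) + 1) * b i := by ring
          _ ≤ _ := mul_le_mul_of_nonneg_right e hbi
      calc 2 * W / (M : ℝ) ^ 2 * (ρ ^ i / q i * (a t (j + i + 1) - 1))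
          = ρ ^ i / q i * (2 * W / (M : ℝ) ^ 2 * (a t (j + i + 1) - 1)) := by ring
        _ ≤ ρ ^ i / q i * (q i * b i) := mul_le_mul_of_nonneg_left e2 (by positivity)
        _ = ρ ^ i * b i := by field_simp
    have h5 : 5 / γ * η = γ / 8 := by rw [hη]; field_simp; ring
    have h6 : 5 / γ * ∑ i ∈ range (W + 1), ρ ^ i * (b (i + 1) - b i)
        ≤ 5 / γ * ρ ^ W * A + γ / 8 * ∑ i ∈ range (W + 1), ρ ^ i * b i := by
      have := mul_le_mul_of_nonneg_left h2 (show 0 ≤ 5 / γ by positivity)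
      have h7 := mul_le_mul_of_nonneg_left h3 (show 0 ≤ 5 / γ * ρ ^ W by positivity)
      rw [← h5]
      nlinarith
    have h8 : c * Φ t ≤ γ / 8 * ∑ i ∈ range (W + 1), ρ ^ i * b i := by
      have := mul_le_mul_of_nonneg_left h4 (show 0 ≤ γ / 8 by positivity)
      refine le_trans (le_of_eq ?_) this
      rw [hc]; field_simp; ring
    linarith
  have hΦt := lin_rec Φ c _ hc0 hc1 (by positivity) hstep t
  have hΦ0 : Φ 0 ≤ (W + 1) * ((M : ℝ) ^ 2 * A) := by
    simp only [hΦ]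
    have : ∑ i ∈ range (W + 1), ρ ^ i / q i * (a 0 (j + i + 1) - 1)
        ≤ ∑ _i ∈ range (W + 1), (M : ℝ) ^ 2 * A := by
      refine sum_le_sum fun i hi => ?_
      have hi' : i ≤ W := by have := mem_range.1 hi; omega
      have h1 : ρ ^ i / q i ≤ (M : ℝ) ^ 2 := by
        rw [div_le_iff₀ (hqpos i hi')]
        have := mul_le_mul_of_nonneg_left (hq0 i hi') hM2.le
        have h2 : ρ ^ i ≤ 1 := pow_le_one₀ hρ0.le hρ1
        have e : (M : ℝ) ^ 2 * (1 / (M : ℝ) ^ 2) = 1 := by field_simp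
        linarith
      have h2 := hle 0 (j + i + 1) (by omega)
      have h3 := hge 0 (j + i + 1) (by omega)
      exact mul_le_mul h1 (by linarith) (by linarith) hM2.le
    simpa using this
  have hfirst : a t (j + 1) - 1 ≤ Φ t := by
    have h1 : ρ ^ 0 / q 0 * (a t (j + 0 + 1) - 1) ≤ Φ t := by
      simp only [hΦ]
      refine single_le_sum (f := fun i => ρ ^ i / q i * (a t (j + i + 1) - 1)) (fun i hi => ?_)
        (mem_range.2 (by omega))
      have hi' : i ≤ W := by have := mem_range.1 hi; omega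
      have := hqpos i hi'
      have h3 := hge t (j + i + 1) (by omega)
      exact mul_nonneg (by positivity) (by linarith)
    have hq1 : q 0 ≤ 1 := by
      simp only [hq]
      rw [div_le_one hM2]
      have : (0 : ℝ) ≤ K := by positivity
      nlinarith [sq_nonneg ((K : ℝ) - 2 * (((j + 0 : ℕ) : ℝ) + 1))]
    have h2 : 1 ≤ ρ ^ 0 / q 0 := by
      rw [pow_zero, le_div_iff₀ (hqpos 0 (by omega))]; linarith
    have h3 := hge t (j + 1) (by omega)
    simp only [add_zero] at h1 ⊢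
    nlinarith
  have e1 : (1 - c) ^ t ≤ Real.exp (-(γ * W * t / (8 * (M : ℝ) ^ 2))) := by
    calc (1 - c) ^ t ≤ Real.exp (-c) ^ t :=
          pow_le_pow_left₀ (sub_nonneg.2 hc1) (by linarith [Real.add_one_le_exp (-c)]) t
      _ = Real.exp (-(c * t)) := by rw [← Real.exp_nat_mul]; ring_nf
      _ ≤ _ := by
          refine Real.exp_le_exp.2 (neg_le_neg ?_)
          have : c * t = 2 * (γ * W * t / (8 * (M : ℝ) ^ 2)) := by rw [hc]; field_simp; ring
          have h2 : 0 ≤ γ * W * t / (8 * (M : ℝ) ^ 2) := by positivity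
          linarith
  have e2 : ρ ^ W ≤ Real.exp (-(γ ^ 2 * W / 80)) := by
    have h1 : ρ ≤ Real.exp (-(η / 2)) := by
      have h2 : ρ ≤ 1 - η / 2 := by
        rw [hρ, div_le_iff₀ (by positivity)]; nlinarith
      linarith [Real.add_one_le_exp (-(η / 2))]
    calc ρ ^ W ≤ Real.exp (-(η / 2)) ^ W := pow_le_pow_left₀ hρ0.le h1 W
      _ = _ := by rw [← Real.exp_nat_mul, hη]; ring_nf
  have e3 : 5 / γ * ρ ^ W * A / c ≤ A * (M : ℝ) ^ 2 * (20 / γ ^ 2 * Real.exp (-(γ ^ 2 * W / 80))) := by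
    have : 5 / γ * ρ ^ W * A / c = A * (M : ℝ) ^ 2 * (20 / γ ^ 2 * (ρ ^ W / W)) := by
      rw [hc]; field_simp; ring
    rw [this]
    have h1 : ρ ^ W / W ≤ ρ ^ W := div_le_self (by positivity) hW'
    gcongr
    exact h1.trans e2
  have e4 : (1 - c) ^ t * Φ 0
      ≤ A * (M : ℝ) ^ 2 * ((W + 1) * Real.exp (-(γ * W * t / (8 * (M : ℝ) ^ 2)))) := by
    calc (1 - c) ^ t * Φ 0 ≤ (1 - c) ^ t * ((W + 1) * ((M : ℝ) ^ 2 * A)) :=
          mul_le_mul_of_nonneg_left hΦ0 (pow_nonneg (sub_nonneg.2 hc1) t)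
      _ ≤ Real.exp (-(γ * W * t / (8 * (M : ℝ) ^ 2))) * ((W + 1) * ((M : ℝ) ^ 2 * A)) :=
          mul_le_mul_of_nonneg_right e1 (by positivity)
      _ = _ := by ring
  rw [mul_add]
  linarith

end Crest.Agent.R304R
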