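import Crest.Agent.R304R.Defs

set_option autoImplicit false
open Finset

namespace Crest.Agent.R304R

lemma wcs {Z : Type*} (s : Finset Z) (r u : Z → ℝ) (hr : ∀ z ∈ s, 0 ≤ r z) :
    (∑ z ∈ s, r z * u z) ^ 2 ≤ (∑ z ∈ s, r z) * ∑ z ∈ s, r z * u z ^ 2 :=
  sum_sq_le_sum_mul_sum_of_sq_le_mul s hr (fun z hz => mul_nonneg (hr z hz) (sq_nonneg _))
    (fun z _ => by rw [mul_pow]; exact le_of_eq (by ring))

lemma jensen {Z : Type*} [Fintype Z] (r u : Z → ℝ) (hr : ∀ z, 0 ≤ r z) (h1 : ∑ z, r z = 1) :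
    (∑ z, r z * u z) ^ 2 ≤ ∑ z, r z * u z ^ 2 := by
  have := wcs univ r u (fun z _ => hr z)
  rwa [h1, one_mul] at this

variable {O : Type*} [Fintype O] {p : O → ℝ} {R : O × O → O × O → ℝ} {γ : ℝ}

lemma PairKer.stat (H : PairKer p R γ) (u : O × O → ℝ) :
    ∑ z, p z.1 * p z.2 * ∑ z', R z z' * u z' = ∑ z, p z.1 * p z.2 * u z := by
  calc ∑ z, p z.1 * p z.2 * ∑ z', R z z' * u z'
      = ∑ z, ∑ z', p z'.1 * p z'.2 * u z' * R z' z := by
        refine sum_congr rfl fun z _ => ?_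
        rw [mul_sum]
        refine sum_congr rfl fun z' _ => ?_
        have := H.rev z z'
        calc p z.1 * p z.2 * (R z z' * u z') = (p z.1 * p z.2 * R z z') * u z' := by ring
          _ = _ := by rw [this]; ring
    _ = ∑ z', p z'.1 * p z'.2 * u z' := by
        rw [sum_comm]
        refine sum_congr rfl fun z' _ => ?_
        rw [← mul_sum, H.row, mul_one]

lemma PairKer.adj (H : PairKer p R γ) (u v : O × O → ℝ) :
    ∑ z, p z.1 * p z.2 * (v z * ∑ z', R z z' * u z')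
      = ∑ z, p z.1 * p z.2 * ((∑ z', R z z' * v z') * u z) := by
  calc ∑ z, p z.1 * p z.2 * (v z * ∑ z', R z z' * u z')
      = ∑ z, ∑ z', p z'.1 * p z'.2 * (R z' z * v z * u z') := by
        refine sum_congr rfl fun z _ => ?_
        rw [mul_sum, mul_sum]
        refine sum_congr rfl fun z' _ => ?_
        have := H.rev z z'
        calc p z.1 * p z.2 * (v z * (R z z' * u z'))
            = (p z.1 * p z.2 * R z z') * (v z * u z') := by ring
          _ = _ := by rw [this]; ring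
    _ = _ := by
        rw [sum_comm]
        refine sum_congr rfl fun z' _ => ?_
        rw [sum_mul, mul_sum]

lemma PairKer.contr (H : PairKer p R γ) (u : O × O → ℝ) :
    ∑ z, p z.1 * p z.2 * (∑ z', R z z' * u z') ^ 2 ≤ ∑ z, p z.1 * p z.2 * u z ^ 2 := by
  rw [← H.stat (fun z => u z ^ 2)]
  exact sum_le_sum fun z _ => mul_le_mul_of_nonneg_left
    (jensen _ _ (H.nonneg z) (H.row z)) (mul_nonneg (H.p_nonneg _) (H.p_nonneg _))

lemma PairKer.lazy_contr [DecidableEq O] (H : PairKer p R γ) (u : O × O → ℝ) :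
    ∑ z, p z.1 * p z.2 * (∑ z', R z z' * u z') ^ 2 ≤ ∑ z, p z.1 * p z.2 * u z ^ 2
      - 1 / 2 * ∑ z, ∑ z', p z.1 * p z.2 * R z z' * (u z - u z') ^ 2 := by
  rw [← H.stat (fun z => u z ^ 2), mul_sum, ← sum_sub_distrib]
  refine sum_le_sum fun z _ => ?_
  have hp : 0 ≤ p z.1 * p z.2 := mul_nonneg (H.p_nonneg _) (H.p_nonneg _)
  have e1 : ∑ z', p z.1 * p z.2 * R z z' * (u z - u z') ^ 2
      = p z.1 * p z.2 * ∑ z', R z z' * (u z' - u z) ^ 2 := by
    rw [mul_sum]; exact sum_congr rfl fun z' _ => by ring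
  rw [e1]
  set D := ∑ z', R z z' * (u z' - u z) ^ 2 with hD
  set μ := ∑ z', R z z' * (u z' - u z) with hμ
  have e2 : ∑ z', R z z' * u z' = μ + u z := by
    have : μ = ∑ z', R z z' * u z' - (∑ z', R z z') * u z := by
      rw [hμ, sum_mul, ← sum_sub_distrib]; exact sum_congr rfl fun z' _ => by ring
    rw [this, H.row]; ring
  have e3 : ∑ z', R z z' * u z' ^ 2 = D + 2 * μ * u z + u z ^ 2 := by
    have : ∑ z', R z z' * u z' ^ 2 = D + 2 * μ * u z + (∑ z', R z z') * u z ^ 2 := by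
      rw [hD, hμ, mul_sum, sum_mul, sum_mul, ← sum_add_distrib, ← sum_add_distrib]
      exact sum_congr rfl fun z' _ => by ring
    rw [this, H.row]; ring
  have h4 : μ ^ 2 ≤ 1 / 2 * D := by
    have a1 : μ = ∑ z' ∈ univ.erase z, R z z' * (u z' - u z) := by
      rw [hμ, ← add_sum_erase _ _ (mem_univ z)]; ring
    have a2 : D = ∑ z' ∈ univ.erase z, R z z' * (u z' - u z) ^ 2 := by
      rw [hD, ← add_sum_erase _ _ (mem_univ z)]; ring
    have a3 : ∑ z' ∈ univ.erase z, R z z' ≤ 1 / 2 := by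
      have := H.row z
      rw [← add_sum_erase _ _ (mem_univ z)] at this
      linarith [H.lazy z]
    have a4 : 0 ≤ D := sum_nonneg fun z' _ => mul_nonneg (H.nonneg _ _) (sq_nonneg _)
    calc μ ^ 2 ≤ (∑ z' ∈ univ.erase z, R z z') * D := by
          rw [a1, a2]; exact wcs _ _ _ (fun z' _ => H.nonneg _ _)
      _ ≤ 1 / 2 * D := mul_le_mul_of_nonneg_right a3 a4
  rw [e2, e3]
  nlinarith [mul_le_mul_of_nonneg_left h4 hp]

lemma sum2 (p : O → ℝ) (u : O × O → ℝ) :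
    ∑ z, p z.1 * p z.2 * u z = ∑ a, p a * ∑ b, p b * u (a, b) := by
  rw [Fintype.sum_prod_type]
  refine sum_congr rfl fun a _ => ?_
  rw [mul_sum]; exact sum_congr rfl fun b _ => by ring

lemma sum2_swap (p : O → ℝ) (u : O × O → ℝ) :
    ∑ z, p z.1 * p z.2 * u z = ∑ z : O × O, p z.1 * p z.2 * u z.swap := by
  rw [← Equiv.sum_comp (Equiv.prodComm O O)]
  exact sum_congr rfl fun z _ => by simp [mul_comm]

lemma sum2_fst (hp : ∑ a, p a = 1) (g : O → ℝ) :
    ∑ z : O × O, p z.1 * p z.2 * g z.1 = ∑ a, p a * g a := by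
  rw [sum2 p (fun z => g z.1)]
  refine sum_congr rfl fun a _ => ?_
  simp only []
  rw [← sum_mul, hp, one_mul]

lemma sum2_snd (hp : ∑ a, p a = 1) (g : O → ℝ) :
    ∑ z : O × O, p z.1 * p z.2 * g z.2 = ∑ a, p a * g a := by
  rw [sum2_swap p (fun z => g z.2)]
  exact sum2_fst hp g

lemma sum2_mul (p : O → ℝ) (g k : O → ℝ) :
    ∑ z : O × O, p z.1 * p z.2 * (g z.1 * k z.2) = (∑ a, p a * g a) * ∑ a, p a * k a := by
  rw [sum2 p (fun z => g z.1 * k z.2), sum_mul]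
  refine sum_congr rfl fun a _ => ?_
  simp only []
  rw [mul_assoc]; congr 1
  rw [mul_sum]; exact sum_congr rfl fun b _ => by ring

/-- the symmetric two-variable decomposition: norm of the second-order part -/
lemma second_norm (hp : ∑ a, p a = 1) (u : O × O → ℝ) (hu : ∀ z, u z.swap = u z) :
    ∑ z : O × O, p z.1 * p z.2 *
      (u z - (∑ b, p b * u (z.1, b)) - (∑ b, p b * u (z.2, b)) + ∑ y, p y.1 * p y.2 * u y) ^ 2
      = ∑ z, p z.1 * p z.2 * u z ^ 2 - 2 * ∑ a, p a * (∑ b, p b * u (a, b)) ^ 2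
        + (∑ y, p y.1 * p y.2 * u y) ^ 2 := by
  set m := ∑ y, p y.1 * p y.2 * u y with hm
  set u1 : O → ℝ := fun a => ∑ b, p b * u (a, b) with hu1
  have h1 : ∑ a, p a * u1 a = m := by rw [hm, sum2]
  have hA : ∑ z : O × O, p z.1 * p z.2 * (u z * u1 z.1) = ∑ a, p a * u1 a ^ 2 := by
    rw [sum2 p (fun z => u z * u1 z.1)]
    refine sum_congr rfl fun a _ => ?_
    simp only []
    have : ∑ b, p b * (u (a, b) * u1 a) = u1 a * u1 a := by
      conv_rhs => rw [hu1]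
      simp only []
      rw [sum_mul]; exact sum_congr rfl fun b _ => by ring
    rw [this]; ring
  have hB : ∑ z : O × O, p z.1 * p z.2 * (u z * u1 z.2) = ∑ a, p a * u1 a ^ 2 := by
    rw [sum2_swap p (fun z => u z * u1 z.2), ← hA]
    exact sum_congr rfl fun z _ => by simp [hu]
  have hC := sum2_mul p u1 u1
  have hD := sum2_fst hp (fun a => u1 a ^ 2)
  have hE := sum2_snd hp (fun a => u1 a ^ 2)
  have hF := sum2_fst hp u1
  have hG := sum2_snd hp u1
  have hH := sum2_fst hp (fun _ => 1)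
  simp only [mul_one, hp] at hH
  have : ∑ z : O × O, p z.1 * p z.2 * (u z - u1 z.1 - u1 z.2 + m) ^ 2
      = ∑ z : O × O, (p z.1 * p z.2 * u z ^ 2 + p z.1 * p z.2 * u1 z.1 ^ 2
        + p z.1 * p z.2 * u1 z.2 ^ 2 + m ^ 2 * (p z.1 * p z.2)
        - 2 * (p z.1 * p z.2 * (u z * u1 z.1)) - 2 * (p z.1 * p z.2 * (u z * u1 z.2))
        + 2 * m * (p z.1 * p z.2 * u z) + 2 * (p z.1 * p z.2 * (u1 z.1 * u1 z.2))
        - 2 * m * (p z.1 * p z.2 * u1 z.1) - 2 * m * (p z.1 * p z.2 * u1 z.2)) :=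
    sum_congr rfl fun z _ => by ring
  change ∑ z : O × O, p z.1 * p z.2 * (u z - u1 z.1 - u1 z.2 + m) ^ 2
      = _ - 2 * ∑ a, p a * u1 a ^ 2 + m ^ 2
  rw [this]
  simp only [sum_add_distrib, sum_sub_distrib, ← mul_sum]
  rw [hA, hB, hC, hD, hE, hF, hG, hH, h1, ← hm]
  ring

lemma second_nonneg (hp0 : ∀ a, 0 ≤ p a) (hp : ∑ a, p a = 1) (u : O × O → ℝ)
    (hu : ∀ z, u z.swap = u z) :
    0 ≤ ∑ z, p z.1 * p z.2 * u z ^ 2 - 2 * ∑ a, p a * (∑ b, p b * u (a, b)) ^ 2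
        + (∑ y, p y.1 * p y.2 * u y) ^ 2 := by
  rw [← second_norm hp u hu]
  exact sum_nonneg fun z _ => mul_nonneg (mul_nonneg (hp0 _) (hp0 _)) (sq_nonneg _)

/-- the key two-variable estimate -/
lemma PairKer.two [DecidableEq O] (H : PairKer p R γ) (hγ : 0 < γ) (hγ1 : γ ≤ 1)
    (hs : ∀ z z', R z.swap z'.swap = R z z') (u : O × O → ℝ) (hu : ∀ z, u z.swap = u z) :
    ∑ a, p a * (∑ b, p b * ∑ z', R (a, b) z' * u z') ^ 2 ≤
      ∑ a, p a * (∑ b, p b * u (a, b)) ^ 2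
        - (γ / 4 * (∑ a, p a * (∑ b, p b * u (a, b)) ^ 2 - (∑ y, p y.1 * p y.2 * u y) ^ 2)
          - 5 / γ * (∑ z, p z.1 * p z.2 * u z ^ 2 - 2 * ∑ a, p a * (∑ b, p b * u (a, b)) ^ 2
            + (∑ y, p y.1 * p y.2 * u y) ^ 2)) := by
  have hp := H.p_sum
  have hp0 := H.p_nonneg
  have hGn := second_norm hp u hu
  set m := ∑ y, p y.1 * p y.2 * u y with hm
  set u1 : O → ℝ := fun a => ∑ b, p b * u (a, b) with hu1
  have h1 : ∑ a, p a * u1 a = m := by rw [hm, sum2]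
  set h : O → ℝ := fun a => u1 a - m with hh
  set G : O × O → ℝ := fun z => u z - u1 z.1 - u1 z.2 + m with hG
  set Hh : O × O → ℝ := fun z => h z.1 + h z.2 with hHh
  have h0 : ∑ a, p a * h a = 0 := by
    have : ∑ a, p a * h a = ∑ a, p a * u1 a - (∑ a, p a) * m := by
      rw [sum_mul, ← sum_sub_distrib]; exact sum_congr rfl fun a _ => by simp only [hh]; ring
    rw [this, h1, hp]; ring
  have hn : ∑ a, p a * h a ^ 2 = ∑ a, p a * u1 a ^ 2 - m ^ 2 := by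
    have : ∑ a, p a * h a ^ 2
        = ∑ a, p a * u1 a ^ 2 - 2 * m * ∑ a, p a * u1 a + (∑ a, p a) * m ^ 2 := by
      rw [sum_mul, mul_sum, ← sum_sub_distrib, ← sum_add_distrib]
      exact sum_congr rfl fun a _ => by simp only [hh]; ring
    rw [this, h1, hp]; ring
  have hH0 : ∑ z, p z.1 * p z.2 * Hh z = 0 := by
    have : ∑ z, p z.1 * p z.2 * Hh z
        = ∑ z : O × O, p z.1 * p z.2 * h z.1 + ∑ z : O × O, p z.1 * p z.2 * h z.2 := by
      rw [← sum_add_distrib]; exact sum_congr rfl fun z _ => by simp only [hHh]; ring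
    rw [this, sum2_fst hp, sum2_snd hp, h0]; ring
  have hHn : ∑ z, p z.1 * p z.2 * Hh z ^ 2 = 2 * ∑ a, p a * h a ^ 2 := by
    have : ∑ z, p z.1 * p z.2 * Hh z ^ 2
        = ∑ z : O × O, p z.1 * p z.2 * h z.1 ^ 2 + ∑ z : O × O, p z.1 * p z.2 * h z.2 ^ 2
          + 2 * ∑ z : O × O, p z.1 * p z.2 * (h z.1 * h z.2) := by
      rw [mul_sum, ← sum_add_distrib, ← sum_add_distrib]
      exact sum_congr rfl fun z _ => by simp only [hHh]; ring
    rw [this, sum2_fst hp (fun a => h a ^ 2), sum2_snd hp (fun a => h a ^ 2), sum2_mul, h0]; ring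
  have hG0 : ∑ z, p z.1 * p z.2 * G z = 0 := by
    have : ∑ z, p z.1 * p z.2 * G z
        = m - ∑ z : O × O, p z.1 * p z.2 * u1 z.1 - ∑ z : O × O, p z.1 * p z.2 * u1 z.2
          + ∑ z : O × O, p z.1 * p z.2 * (fun _ => m) z.1 := by
      conv_rhs => rw [hm]
      rw [← sum_sub_distrib, ← sum_sub_distrib, ← sum_add_distrib]
      exact sum_congr rfl fun z _ => by simp only [hG]; ring
    rw [this, sum2_fst hp u1, sum2_snd hp u1, sum2_fst hp (fun _ => m), ← sum_mul, hp, h1]; ring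
  set RH : O × O → ℝ := fun z => ∑ z', R z z' * Hh z' with hRH
  set RG : O × O → ℝ := fun z => ∑ z', R z z' * G z' with hRG
  set P : O → ℝ := fun a => ∑ b, p b * RH (a, b) with hP
  set Q : O → ℝ := fun a => ∑ b, p b * RG (a, b) with hQ
  have hv : ∀ a, ∑ b, p b * ∑ z', R (a, b) z' * u z' = m + (P a + Q a) := by
    intro a
    have e : ∀ b, ∑ z', R (a, b) z' * u z' = m + RH (a, b) + RG (a, b) := by
      intro b
      have : ∑ z', R (a, b) z' * u z' = (∑ z', R (a, b) z') * m + RH (a, b) + RG (a, b) := by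
        simp only [hRH, hRG]
        rw [sum_mul, ← sum_add_distrib, ← sum_add_distrib]
        exact sum_congr rfl fun z _ => by simp only [hHh, hG, hh]; ring
      rw [this, H.row, one_mul]
    have : ∑ b, p b * ∑ z', R (a, b) z' * u z' = (∑ b, p b) * m + (P a + Q a) := by
      simp only [hP, hQ]
      rw [sum_mul, ← sum_add_distrib, ← sum_add_distrib]
      exact sum_congr rfl fun b _ => by rw [e]; ring
    rw [this, hp, one_mul]
  have hP0 : ∑ a, p a * P a = 0 := by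
    rw [← sum2 p RH]; simp only [hRH]; rw [H.stat, hH0]
  have hQ0 : ∑ a, p a * Q a = 0 := by
    rw [← sum2 p RG]; simp only [hRG]; rw [H.stat, hG0]
  have hQn : ∑ a, p a * Q a ^ 2 ≤ ∑ z, p z.1 * p z.2 * G z ^ 2 := by
    calc ∑ a, p a * Q a ^ 2 ≤ ∑ a, p a * ∑ b, p b * RG (a, b) ^ 2 :=
          sum_le_sum fun a _ => mul_le_mul_of_nonneg_left (jensen _ _ hp0 hp) (hp0 a)
      _ = ∑ z, p z.1 * p z.2 * RG z ^ 2 := (sum2 p (fun z => RG z ^ 2)).symm
      _ ≤ _ := H.contr G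
  have hRHs : ∀ z, RH z.swap = RH z := by
    intro z
    simp only [hRH]
    rw [← Equiv.sum_comp (Equiv.prodComm O O)]
    refine sum_congr rfl fun z' _ => ?_
    simp only [Equiv.prodComm_apply]
    rw [hs]; simp only [hHh, Prod.fst_swap, Prod.snd_swap]; ring
  have hP2 : 2 * ∑ a, p a * P a ^ 2 ≤ ∑ z, p z.1 * p z.2 * RH z ^ 2 := by
    have := second_nonneg hp0 hp RH hRHs
    have e : ∑ y, p y.1 * p y.2 * RH y = 0 := by rw [sum2]; exact hP0
    rw [e] at this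
    simp only [hP]
    linarith
  have hL := H.lin h h0
  have hLC := H.lazy_contr Hh
  have eL : ∑ z, ∑ z', p z.1 * p z.2 * R z z' * (Hh z - Hh z') ^ 2
      = ∑ z, ∑ z', p z.1 * p z.2 * R z z' * (h z.1 + h z.2 - h z'.1 - h z'.2) ^ 2 :=
    sum_congr rfl fun z _ => sum_congr rfl fun z' _ => by simp only [hHh]; ring
  rw [eL, hHn] at hLC
  have hPn : ∑ a, p a * P a ^ 2 ≤ (1 - γ / 2) * ∑ a, p a * h a ^ 2 := by
    simp only [hRH] at hP2
    linarith
  have hmain : ∑ a, p a * (∑ b, p b * ∑ z', R (a, b) z' * u z') ^ 2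
      ≤ m ^ 2 + (1 + γ / 4) * ∑ a, p a * P a ^ 2 + (1 + 4 / γ) * ∑ a, p a * Q a ^ 2 := by
    have : m ^ 2 + (1 + γ / 4) * ∑ a, p a * P a ^ 2 + (1 + 4 / γ) * ∑ a, p a * Q a ^ 2
        = ∑ a, p a * (m ^ 2 + 2 * m * P a + 2 * m * Q a + (1 + γ / 4) * P a ^ 2
            + (1 + 4 / γ) * Q a ^ 2) := by
      have e : ∑ a, p a * (m ^ 2 + 2 * m * P a + 2 * m * Q a + (1 + γ / 4) * P a ^ 2
            + (1 + 4 / γ) * Q a ^ 2)
          = (∑ a, p a) * m ^ 2 + 2 * m * ∑ a, p a * P a + 2 * m * ∑ a, p a * Q a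
            + (1 + γ / 4) * ∑ a, p a * P a ^ 2 + (1 + 4 / γ) * ∑ a, p a * Q a ^ 2 := by
        simp only [sum_mul, mul_sum, ← sum_add_distrib]
        exact sum_congr rfl fun a _ => by ring
      rw [e, hP0, hQ0, hp]; ring
    rw [this]
    refine sum_le_sum fun a _ => mul_le_mul_of_nonneg_left ?_ (hp0 a)
    rw [hv]
    have : 2 * P a * Q a ≤ γ / 4 * P a ^ 2 + 4 / γ * Q a ^ 2 := by
      have e : γ / 4 * P a ^ 2 + 4 / γ * Q a ^ 2 - 2 * P a * Q a
          = (γ / 4) * (P a - 4 / γ * Q a) ^ 2 := by field_simp; ring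
      have : 0 ≤ (γ / 4) * (P a - 4 / γ * Q a) ^ 2 := by positivity
      linarith
    nlinarith
  have hh0 : 0 ≤ ∑ a, p a * h a ^ 2 := sum_nonneg fun a _ => mul_nonneg (hp0 a) (sq_nonneg _)
  have hg0 : 0 ≤ ∑ z, p z.1 * p z.2 * G z ^ 2 :=
    sum_nonneg fun z _ => mul_nonneg (mul_nonneg (hp0 _) (hp0 _)) (sq_nonneg _)
  have c1 : (1 + γ / 4) * ∑ a, p a * P a ^ 2 ≤ (1 - γ / 4) * ∑ a, p a * h a ^ 2 := by
    calc _ ≤ (1 + γ / 4) * ((1 - γ / 2) * ∑ a, p a * h a ^ 2) :=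
          mul_le_mul_of_nonneg_left hPn (by positivity)
      _ = ((1 + γ / 4) * (1 - γ / 2)) * ∑ a, p a * h a ^ 2 := by ring
      _ ≤ _ := mul_le_mul_of_nonneg_right (by nlinarith) hh0
  have c2 : (1 + 4 / γ) * ∑ a, p a * Q a ^ 2 ≤ 5 / γ * ∑ z, p z.1 * p z.2 * G z ^ 2 := by
    calc _ ≤ (1 + 4 / γ) * ∑ z, p z.1 * p z.2 * G z ^ 2 :=
          mul_le_mul_of_nonneg_left hQn (by positivity)
      _ ≤ _ := by
          refine mul_le_mul_of_nonneg_right ?_ hg0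
          have : 1 ≤ 1 / γ := by rw [le_div_iff₀ hγ]; linarith
          have e : 5 / γ = 1 / γ + 4 / γ := by ring
          linarith
  change ∑ z : O × O, p z.1 * p z.2 * G z ^ 2 = _ - 2 * ∑ a, p a * u1 a ^ 2 + m ^ 2 at hGn
  change _ ≤ ∑ a, p a * u1 a ^ 2 - (γ / 4 * (∑ a, p a * u1 a ^ 2 - m ^ 2)
    - 5 / γ * (_ - 2 * ∑ a, p a * u1 a ^ 2 + m ^ 2))
  rw [← hGn, ← hn]
  have : ∑ a, p a * u1 a ^ 2 = ∑ a, p a * h a ^ 2 + m ^ 2 := by linarith
  rw [this]
  linarith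

end Crest.Agent.R304R
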